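import Vale.Agent.P261Z.B.Vop

/-!
# P261Z, block B: an Igusa structure has a bounded frame (B0)
-/

open WittVector Matrix

noncomputable section

namespace P261

variable {p : ℕ} [hp : Fact p.Prime] {K : Type} [CommRing K]

namespace Fil

variable (F : Fil p K)

/-- the bounded Witt vectors -/
def BD : Subring (WittVector p K) where
  carrier := {x | ∃ t, x ∈ F.WL t}
  mul_mem' := fun ⟨_, hx⟩ ⟨_, hy⟩ => ⟨_, WL_mul hx hy⟩
  one_mem' := ⟨0, WL_one⟩
  add_mem' := fun ⟨s, hx⟩ ⟨t, hy⟩ =>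
    ⟨max s t, add_mem (WL_le hx (le_max_left _ _)) (WL_le hy (le_max_right _ _))⟩
  zero_mem' := ⟨0, zero_mem _⟩
  neg_mem' := fun ⟨s, hx⟩ => ⟨s, neg_mem hx⟩

variable {F} in
theorem Wlin_le {x : WittVector p K} {α β α' β' : ℝ} (h : x ∈ F.Wlin α β) (h1 : α ≤ α')
    (h2 : β ≤ β') : x ∈ F.Wlin α' β' :=
  WS_le h fun J => add_le_add h1 (mul_le_mul_of_nonneg_right h2 (Nat.cast_nonneg J))

/-- the Witt vectors of linear growth -/
def LIN : Subring (WittVector p K) where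
  carrier := {x | ∃ α β, x ∈ F.Wlin α β}
  mul_mem' := fun ⟨a, b, hx⟩ ⟨c, d, hy⟩ =>
    ⟨a + c, b + d, WS_le (WS_mul hx hy) fun _ => le_of_eq (by ring)⟩
  one_mem' := ⟨0, 0, WL.lin WL_one⟩
  add_mem' := fun ⟨a, b, hx⟩ ⟨c, d, hy⟩ => ⟨max a c, max b d,
    add_mem (Wlin_le hx (le_max_left _ _) (le_max_left _ _))
      (Wlin_le hy (le_max_right _ _) (le_max_right _ _))⟩
  zero_mem' := ⟨0, 0, zero_mem _⟩
  neg_mem' := fun ⟨a, b, hx⟩ => ⟨a, b, neg_mem hx⟩

variable {F} {x : WittVector p K} {ι κ : Type}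

theorem BD.lin (h : x ∈ F.BD) : x ∈ F.LIN := h.elim fun t ht => ⟨t, 0, WL.lin ht⟩

theorem BD.unif [Finite ι] {e : ι → WittVector p K} (h : ∀ i, e i ∈ F.BD) :
    ∃ t, 0 ≤ t ∧ ∀ i, e i ∈ F.WL t := by
  choose τ hτ using h
  obtain ⟨t, ht⟩ := (Set.finite_range τ).bddAbove
  exact ⟨max t 0, le_max_right _ _, fun i => WL_le (hτ i) ((ht ⟨i, rfl⟩).trans (le_max_left _ _))⟩

theorem BD.unif₂ [Finite ι] [Finite κ] {e : Matrix ι κ (WittVector p K)} (h : ∀ i j, e i j ∈ F.BD) :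
    ∃ t, 0 ≤ t ∧ F.MW t e :=
  (BD.unif (e := fun l : ι × κ => e l.1 l.2) fun _ => h _ _).imp fun _ h => ⟨h.1, fun i j => h.2 (i, j)⟩

theorem LIN.unif [Finite ι] {e : ι → WittVector p K} (h : ∀ i, e i ∈ F.LIN) :
    ∃ α β, 0 ≤ β ∧ 2 * β ≤ α ∧ ∀ i, e i ∈ F.Wlin α β := by
  choose σ τ hτ using h
  obtain ⟨s, hs⟩ := (Set.finite_range σ).bddAbove
  obtain ⟨t, ht⟩ := (Set.finite_range τ).bddAbove
  exact ⟨max s (2 * max t 0), max t 0, le_max_right _ _, le_max_right _ _, fun i => Wlin_le (hτ i)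
    ((hs ⟨i, rfl⟩).trans (le_max_left _ _)) ((ht ⟨i, rfl⟩).trans (le_max_left _ _))⟩

theorem Exh.tm (hE : F.Exh) (a : K) : tm p a ∈ F.BD := (hE a).imp fun _ => WL_tm

variable [Pf p K]

theorem BD.si (h : x ∈ F.BD) : si p K x ∈ F.BD := h.elim fun _ ht => ⟨_, WL_si ht⟩

theorem BD.of_p_mul (h : (p : WittVector p K) * x ∈ F.BD) : x ∈ F.BD :=
  h.imp fun _ => WL_p_mul.1

theorem LIN.si_pow (h : x ∈ F.LIN) (k : ℕ) : (si p K ^ k) x ∈ F.LIN :=
  let ⟨a, b, h⟩ := h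
  ⟨a / p ^ k, b / p ^ k, WS_le (WS_si_pow h k) fun _ => le_of_eq (by ring)⟩

theorem LIN.si (h : x ∈ F.LIN) : si p K x ∈ F.LIN := by simpa using LIN.si_pow h 1

theorem LIN.move {h : ℕ} (hh : 0 < h) (hx : x ∈ F.LIN) : ∃ y ∈ F.LIN, x + Dop p K h y ∈ F.BD := by
  obtain ⟨α, β, h1, h2, h3⟩ := LIN.unif (e := fun _ : Unit => x) fun _ => hx
  obtain ⟨y, h4, h5⟩ := Fil.move hh (h3 ()) h1 h2
  exact ⟨y, ⟨_, _, h4⟩, _, h5⟩

variable [Fintype ι] [Fintype κ]

theorem Closed.fix_lin (hF : F.Closed) (hE : F.Exh) {h : ℕ} (hh : 0 < h)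
    {B : Matrix ι ι (WittVector p K)} {e : ι → WittVector p K} (hB : ∀ i j, B i j ∈ F.LIN)
    (he : e = B *ᵥ fun j => (si p K ^ h) (e j)) (i : ι) : e i ∈ F.LIN := by
  obtain ⟨α, β, h1, h2, h3⟩ := LIN.unif (e := fun l : ι × ι => B l.1 l.2) fun _ => hB _ _
  refine ⟨2 * α, 2 * β, mem_WS.2 fun J => WT_le (hF.fix_mulVec hE hh
    (fun i j => mem_WS.1 (h3 (i, j)) J) ?_ he i) le_rfl (le_of_eq (by ring))⟩
  exact add_nonneg (by linarith) (by positivity)

theorem Closed.fix_bd (hF : F.Closed) (hE : F.Exh) {A : Matrix ι ι (WittVector p K)} {s : ℝ}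
    {e : ι → WittVector p K} (hA : F.MW s A) (hs : 0 ≤ s) (he : Vop A e = e) (i : ι) :
    e i ∈ F.WL (2 * s) := mem_WL'.2 fun J =>
  hF.fix_mulVec hE one_pos (fun i j => WL.WT (hA i j) J) hs (by rw [pow_one]; exact he.symm) i

/-- the inverse of a bounded matrix has linear growth -/
theorem Exh.inv_lin [DecidableEq ι] [DecidableEq κ] (hE : F.Exh) {P : Matrix ι κ (WittVector p K)}
    {Q : Matrix κ ι (WittVector p K)} (hP : ∀ i j, P i j ∈ F.BD) (h1 : P * Q = 1) (h2 : Q * P = 1)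
    (i : κ) (j : ι) : Q i j ∈ F.LIN := by
  have h0 : ∀ i j, Q.map (fun x => P261.tm p (x.coeff 0)) i j ∈ F.BD := fun _ _ => hE.tm _
  have e : Q = Q.map (fun x => P261.tm p (x.coeff 0)) + (p : WittVector p K) • Q.map dv :=
    Matrix.ext fun i j => (tm_add_dv _).symm
  have hZ : ∀ i j, (P * Q.map dv) i j ∈ F.BD := fun i j => BD.of_p_mul (by
    have : (p : WittVector p K) • (P * Q.map dv) =
        1 - P * Q.map fun x => P261.tm p (x.coeff 0) := by
      rw [← h1, ← Matrix.mul_sub, ← Matrix.mul_smul, ← sub_eq_iff_eq_add'.2 e]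
    have h3 := congrFun (congrFun this i) j
    rw [Matrix.smul_apply, smul_eq_mul] at h3
    rw [h3, Matrix.sub_apply, Matrix.one_apply]
    refine sub_mem ?_ (sum_mem fun l _ => F.BD.mul_mem (hP _ _) (h0 _ _))
    split_ifs
    exacts [F.BD.one_mem, F.BD.zero_mem])
  obtain ⟨s, hs, h0⟩ := BD.unif₂ h0
  obtain ⟨z, hz, hZ⟩ := BD.unif₂ hZ
  have h4 : ∀ (J : ℕ) i j, Q i j ∈ F.WT J (s + z * J) := by
    intro J
    induction J with
    | zero => exact fun _ _ => WT_zero _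
    | succ J ih =>
      intro i j
      have h5 := WT_p_mul (WT_mmul ih (fun i j => WL.WT (hZ i j) J) i j)
      rw [← Matrix.mul_assoc, h2, Matrix.one_mul] at h5
      rw [← tm_add_dv (Q i j)]
      exact add_mem (WT_le (WL.WT (h0 i j) _) le_rfl (le_add_of_nonneg_right (by positivity)))
        (WT_le h5 le_rfl (le_of_eq (by push_cast; ring)))
  exact ⟨s + z, z, mem_WS.2 fun J => WT_le (h4 (J + 1) i j) le_rfl (le_of_eq (by push_cast; ring))⟩

end Fil

variable [Pf p K] {ι E : Type} [Fintype ι] {A : Matrix ι ι (WittVector p K)} {h : ℕ}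

theorem Vop_mem {S : Subring (WittVector p K)} (hS : ∀ x ∈ S, si p K x ∈ S) (hA : ∀ i j, A i j ∈ S)
    {v : ι → WittVector p K} (hv : ∀ i, v i ∈ S) (k : ℕ) (i : ι) : (Vop A ^ k) v i ∈ S := by
  induction k generalizing i with
  | zero => exact hv i
  | succ k ih => rw [Vop_succ]; exact sum_mem fun j _ => mul_mem (hA i j) (hS _ (ih j))

theorem isUnit_one_sub_p [DecidableEq ι] (Z : Matrix ι ι (WittVector p K)) :
    IsUnit (1 - (p : WittVector p K) • Z) := by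
  rw [isUnit_iff_isUnit_det]
  refine isUnit_of_coeff ?_
  have : (1 - (p : WittVector p K) • Z).map (constantCoeff : WittVector p K →+* K) = 1 :=
    Matrix.ext fun i j => by
      rw [map_apply, Matrix.sub_apply, map_sub, Matrix.smul_apply, smul_eq_mul,
        constantCoeff_apply (_ * _), coeff_p_mul_zero, sub_zero, Matrix.one_apply, Matrix.one_apply,
        apply_ite constantCoeff, map_one, map_zero]
  rw [← constantCoeff_apply, RingHom.map_det, RingHom.mapMatrix_apply, this, det_one]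
  exact isUnit_one

/-- a matrix which is congruent to an invertible matrix is invertible -/
theorem inv_of_cong {κ : Type} [Fintype κ] [DecidableEq ι] [DecidableEq κ]
    {P Y : Matrix ι κ (WittVector p K)} {μ : Matrix κ ι (WittVector p K)}
    (h1 : (P + (p : WittVector p K) • Y) * μ = 1) (h2 : μ * (P + (p : WittVector p K) • Y) = 1) :
    ∃ Q : Matrix κ ι (WittVector p K), P * Q = 1 ∧ Q * P = 1 := by
  obtain ⟨u, hu⟩ := isUnit_one_sub_p (μ * Y)
  have e : μ * P = u := by rw [hu, ← h2, Matrix.mul_add, Matrix.mul_smul, add_sub_cancel_right]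
  refine ⟨(u⁻¹).val * μ, ?_, ?_⟩
  · rw [← Matrix.one_mul P, ← h1, Matrix.mul_assoc _ μ, e, Matrix.mul_assoc,
      ← Matrix.mul_assoc u.val, u.mul_inv, Matrix.one_mul]
  · rw [Matrix.mul_assoc, e, u.inv_mul]

variable [Fintype E] [DecidableEq E] [DecidableEq ι] {F : Fil p K}

open Fil in
/-- B0 for vectors -/
theorem b0v (hF : F.Closed) (hE : F.Exh) (hh : 0 < h) (hA : ∀ i j, A i j ∈ F.BD)
    {ε : E → ι → WittVector p K} {e : ι → WittVector p K} (hε : ∀ i, Vop A (ε i) = ε i)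
    (he : (Vop A ^ h) e = (p : WittVector p K) • e + ∑ l, (0 : E → WittVector p K) l • ε l)
    {μ : Matrix (E ⊕ Fin h) ι (WittVector p K)} (h1 : frame A h ε e * μ = 1)
    (h2 : μ * frame A h ε e = 1) : ∃ a : E → WittVector p K, (∀ l, Dop p K h (a l) ∈ F.BD) ∧
      ∀ i j, frame A h ε (e + ∑ l, a l • ε l) i j ∈ F.BD := by
  obtain ⟨s, hs, hAs⟩ := BD.unif₂ hA
  have hεb : ∀ l i, ε l i ∈ F.BD := fun l i => ⟨_, hF.fix_bd hE hAs hs (hε l) i⟩
  have hV : ∀ {v : ι → WittVector p K}, (∀ i, v i ∈ F.BD) → ∀ k i, (Vop A ^ k) v i ∈ F.BD :=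
    Vop_mem (fun _ => BD.si) hA
  have hfr : ∀ {v : ι → WittVector p K}, (∀ i, v i ∈ F.BD) → ∀ i j, frame A h ε v i j ∈ F.BD := by
    rintro v hv i (l | j)
    exacts [hεb l i, hV hv j i]
  obtain ⟨m, z, hm, rfl⟩ : ∃ m z : ι → WittVector p K, (∀ i, m i ∈ F.BD) ∧
      e = m + (p : WittVector p K) • z :=
    ⟨fun i => tm p ((e i).coeff 0), fun i => dv (e i), fun _ => hE.tm _,
      funext fun i => (tm_add_dv _).symm⟩
  have e1 : frame A h ε (m + (p : WittVector p K) • z) =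
      frame A h ε m + (p : WittVector p K) • frame A h 0 z := by
    refine ext_col ?_
    rintro (l | j)
    · funext i; simp [frame]
    · rw [frame_inr, map_add, Vop_pow_p]; rfl
  obtain ⟨Q, h3, h4⟩ := inv_of_cong (e1 ▸ h1) (e1 ▸ h2)
  have hQ := hE.inv_lin (hfr hm) h3 h4
  generalize hee : m + (p : WittVector p K) • z = e at he
  obtain ⟨m', hm'⟩ : ∃ m', (Vop A ^ h) m = (p : WittVector p K) • m' := ⟨e - (Vop A ^ h) z, by
    rw [smul_sub, ← Vop_pow_p h z, eq_sub_iff_add_eq, ← map_add, hee, he]; simp⟩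
  have hm'b : ∀ i, m' i ∈ F.BD := fun i => BD.of_p_mul (by
    have := hV hm h i
    rwa [hm'] at this)
  obtain ⟨c, hc⟩ : ∃ c, e = frame A h ε m *ᵥ c := ⟨Q *ᵥ e, by rw [mulVec_mulVec, h3, one_mulVec]⟩
  have e2 : e + ∑ l, -c (.inl l) • ε l = ∑ j : Fin h, c (.inr j) • (Vop A ^ (j : ℕ)) m := by
    rw [hc, frame_mulVec]
    simp only [neg_smul, Finset.sum_neg_distrib]
    abel
  have e3 := Vop_move hε he fun l => -c (.inl l)
  have e4 : (p : WittVector p K) • ∑ j : Fin h, (si p K ^ h) (c (.inr j)) •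
      Q *ᵥ (Vop A ^ (j : ℕ)) m' = Sum.elim (fun l => Dop p K h (-c (.inl l)))
        fun j => p * c (.inr j) := by
    rw [← one_mulVec (Sum.elim _ _), ← h4, ← mulVec_mulVec, frame_mulVec]
    simp only [Sum.elim_inl, Sum.elim_inr, mul_smul, ← Finset.smul_sum]
    simp only [Pi.zero_apply, zero_add] at e3
    rw [add_comm, ← e2, ← e3, e2]
    simp only [map_sum, Vop_pow_smul, Vop_comm h, hm', map_natCast, mulVec_sum, mulVec_smul,
      Finset.smul_sum, smul_comm (p : WittVector p K)]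
  have hQm : ∀ (j : ℕ) l, (Q *ᵥ (Vop A ^ j) m') l ∈ F.LIN := fun j l =>
    sum_mem fun i _ => mul_mem (hQ l i) (BD.lin (hV hm'b j i))
  have hc2 : ∀ j, c (.inr j) ∈ F.LIN := hF.fix_lin hE hh
    (B := Matrix.of fun l j : Fin h => (Q *ᵥ (Vop A ^ (j : ℕ)) m') (.inr l))
    (fun _ _ => hQm _ _) (funext fun l => p_mul_inj (by
      have := congrFun e4 (.inr l)
      simp only [Pi.smul_apply, Finset.sum_apply, smul_eq_mul, Sum.elim_inr] at this
      rw [← this]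
      simp only [mulVec, dotProduct, of_apply, mul_comm]))
  have hx : ∀ l, Dop p K h (-c (.inl l)) ∈ F.LIN := fun l => by
    have := congrFun e4 (.inl l)
    simp only [Pi.smul_apply, Finset.sum_apply, smul_eq_mul, Sum.elim_inl] at this
    rw [← this]
    exact mul_mem (natCast_mem _ _) (sum_mem fun j _ => mul_mem (LIN.si_pow (hc2 j) h) (hQm _ _))
  choose y hy1 hy2 using fun l => LIN.move hh (hx l)
  simp only [← map_add] at hy2
  refine ⟨fun l => -c (.inl l) + y l, hy2, hfr fun i => ?_⟩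
  have e5 := Vop_move hε he fun l => -c (.inl l) + y l
  obtain ⟨α, β, -, -, h5⟩ := LIN.unif (F := F) (e := e + ∑ l, (-c (.inl l) + y l) • ε l) fun i => by
    simp only [add_smul, Finset.sum_add_distrib, ← add_assoc, e2]
    simp only [Pi.add_apply, Finset.sum_apply, Pi.smul_apply, smul_eq_mul]
    exact add_mem (sum_mem fun j _ => mul_mem (hc2 j) (BD.lin (hV hm j i)))
      (sum_mem fun l _ => mul_mem (hy1 l) (BD.lin (hεb l i)))
  obtain ⟨u, hu, h6⟩ := BD.unif (F := F)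
    (e := ∑ l, ((0 : E → WittVector p K) l + Dop p K h (-c (.inl l) + y l)) • ε l) fun i => by
    simp only [Finset.sum_apply, Pi.smul_apply, smul_eq_mul, Pi.zero_apply, zero_add]
    exact sum_mem fun l _ => mul_mem (hy2 l) (hεb l i)
  refine ⟨2 * s + u, hF.bound one_lt_two h5 (fun J t ht H i => ?_) i⟩
  have e6 := congrFun (eq_sub_of_add_eq e5.symm) i
  rw [Pi.smul_apply, smul_eq_mul] at e6
  have := div_le_div_of_nonneg_left (by linarith : 0 ≤ t - 2 * s) two_pos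
    (le_self_pow₀ one_le_two hh.ne')
  rw [e6]
  exact sub_mem (WT_le (WT_Vop_pow hAs hs (by linarith) H h i) le_rfl (by linarith))
    (WT_le (WL.WT (h6 i) J) le_rfl (by linarith))

open Fil in
/-- **B0** -/
theorem b0 (hF : F.Closed) (hE : F.Exh) (hh : 0 < h) {B : Matrix ι ι (WittVector p K)}
    (hA : ∀ i j, A i j ∈ F.BD) (hB : ∀ i j, B i j ∈ F.BD)
    (hAB : A * B = (p : WittVector p K) • (1 : Matrix ι ι (WittVector p K)))
    {μ : Matrix (E ⊕ Fin h) ι (WittVector p K)} {ν : Matrix ι (E ⊕ Fin h) (WittVector p K)}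
    (h1 : ν * μ = 1) (h2 : μ * ν = 1) (hν : A * ν.map (si p K) = ν * V0 p E h _) :
    ∃ (a : E → WittVector p K) (t : ℝ), 0 ≤ t ∧ (∀ l, Dop p K h (a l) ∈ F.WL t) ∧
      F.MW t (Ua h (-a) * μ) ∧ F.MW t (ν * Ua h a) ∧
      A * (ν * Ua h a).map (si p K) = ν * Ua h a * Nm p h fun l => Dop p K h (a l) := by
  obtain ⟨hε, he, e⟩ := itw_frame hh (hν.trans (congrArg (ν * ·) Nm_zero.symm))
  obtain ⟨a, h3, h4⟩ := b0v hF hE hh hA hε he (by rw [e, h1]) (by rw [e, h2])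
  have h5 := frame_itw hε (Vop_move hε he a)
  rw [← frame_Ua hε, e] at h4 h5
  simp only [Pi.zero_apply, zero_add] at h5
  have h6 : ν * Ua h a * (Ua h (-a) * μ) = 1 := by
    rw [Matrix.mul_assoc, ← Matrix.mul_assoc (Ua h a), Ua_mul, add_neg_cancel, Ua_zero,
      Matrix.one_mul, h1]
  have h7 : Ua h (-a) * μ * (ν * Ua h a) = 1 := by
    rw [Matrix.mul_assoc, ← Matrix.mul_assoc μ, h2, Matrix.one_mul, Ua_mul, neg_add_cancel, Ua_zero]
  obtain ⟨α, β, -, -, h8⟩ := LIN.unif (e := fun l : (E ⊕ Fin h) × ι => (Ua h (-a) * μ) l.1 l.2)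
    fun _ => hE.inv_lin h4 h6 h7 _ _
  obtain ⟨s, hs, h3⟩ := BD.unif h3
  obtain ⟨u, hu, h4⟩ := BD.unif₂ h4
  obtain ⟨b, hb, hB⟩ := BD.unif₂ hB
  have h9 := hF.B1' (fun i j => h8 (i, j)) (MW_Nm (h := h) hs h3) hB (by linarith) hAB (by
    generalize Ua h (-a) * μ = g' at h6 h7
    generalize ν * Ua h a = g at h5 h6 h7
    have : g.map (si p K) * g'.map (si p K) = 1 := by
      rw [← Matrix.map_mul, h6, Matrix.map_one _ (map_zero _) (map_one _)]
    rw [← Matrix.mul_one (g' * A), ← this, ← Matrix.mul_assoc, Matrix.mul_assoc g', h5,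
      ← Matrix.mul_assoc, h7, Matrix.one_mul])
  exact ⟨a, 2 * (s + b) + u, by linarith, fun l => WL_le (h3 l) (by linarith),
    fun i j => WL_le (h9 i j) (by linarith), fun i j => WL_le (h4 i j) (by linarith), h5⟩

end P261
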