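import Vale.Agent.P261Z.W.Pole

/-!
# P261Z, block B: contraction arguments (B0, B1, B2)
-/

open WittVector Matrix

noncomputable section

namespace P261

/-- the abstract contraction argument -/
theorem contr {P : ℝ → Prop} (mono : ∀ s t, s ≤ t → P s → P t)
    (cl : ∀ t, (∀ ε > 0, P (t + ε)) → P t) {t₀ s q : ℝ} (hq : 1 < q) (h0 : P t₀)
    (step : ∀ t, s ≤ t → P t → P (s + (t - s) / q)) : P s := by
  have hb : 0 ≤ max t₀ s - s := sub_nonneg.2 (le_max_right _ _)
  have h1 : ∀ k : ℕ, P (s + (max t₀ s - s) / q ^ k) := by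
    intro k
    induction k with
    | zero => exact mono _ _ (by simp) h0
    | succ k ih =>
      have := step _ (le_add_of_nonneg_right (by positivity)) ih
      rwa [add_sub_cancel_left, div_div, ← pow_succ] at this
  refine cl _ fun ε hε => ?_
  obtain ⟨k, hk⟩ := pow_unbounded_of_one_lt ((max t₀ s - s) / ε) hq
  refine mono _ _ ?_ (h1 k)
  rw [div_lt_iff₀ hε] at hk
  have : (max t₀ s - s) / q ^ k ≤ ε := by rw [div_le_iff₀ (by positivity)]; linarith
  linarith

theorem lin_small (a b : ℝ) {q ε : ℝ} (hq : 1 < q) (hε : 0 < ε) :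
    ∃ k : ℕ, (a + b * k) / q ^ k ≤ ε := by
  have h1 := (tendsto_pow_const_div_const_pow_of_one_lt 0 hq).const_mul a
  have h2 := (tendsto_pow_const_div_const_pow_of_one_lt 1 hq).const_mul b
  obtain ⟨k, hk⟩ := ((h1.add h2).eventually_le_const (u := ε) (by simpa using hε)).exists
  exact ⟨k, le_trans (le_of_eq (by ring)) hk⟩

namespace Fil

variable {p : ℕ} [hp : Fact p.Prime] {K : Type*} [CommRing K] {F : Fil p K}
  {J : ℕ} {s t a b α β : ℝ} {τ : ℕ → ℝ} {ι κ μ ν : Type*}

theorem two_le_pow {h : ℕ} (hh : 0 < h) : (2 : ℝ) ≤ p ^ h :=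
  two_le_p.trans (le_self_pow₀ (by linarith [two_le_p (p := p)]) hh.ne')

theorem Closed.WS (hF : F.Closed) {x : WittVector p K}
    (h : ∀ ε > 0, x ∈ F.WS fun J => τ J + ε) : x ∈ F.WS τ :=
  mem_WS.2 fun J => hF.WT fun ε hε => mem_WS.1 (h ε hε) J

theorem WT_mulVec [Fintype κ] {A : Matrix ι κ (WittVector p K)} {v : κ → WittVector p K}
    (hA : ∀ i j, A i j ∈ F.WT J s) (hv : ∀ j, v j ∈ F.WT J t) (i : ι) :
    (A *ᵥ v) i ∈ F.WT J (s + t) := sum_mem fun j _ => WT_mul (hA i j) (hv j)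

theorem WT_mmul [Fintype κ] {A : Matrix ι κ (WittVector p K)} {B : Matrix κ μ (WittVector p K)}
    (hA : ∀ i j, A i j ∈ F.WT J s) (hB : ∀ i j, B i j ∈ F.WT J t) (i : ι) (j : μ) :
    (A * B) i j ∈ F.WT J (s + t) := sum_mem fun l _ => WT_mul (hA i l) (hB l j)

theorem WL_mmul [Fintype κ] {A : Matrix ι κ (WittVector p K)} {B : Matrix κ μ (WittVector p K)}
    (hA : ∀ i j, A i j ∈ F.WL s) (hB : ∀ i j, B i j ∈ F.WL t) (i : ι) (j : μ) :
    (A * B) i j ∈ F.WL (s + t) := sum_mem fun l _ => WL_mul (hA i l) (hB l j)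

theorem WL.WT {x : WittVector p K} (h : x ∈ F.WL t) (J : ℕ) : x ∈ F.WT J t := mem_WL'.1 h J

theorem WL.lin {x : WittVector p K} (h : x ∈ F.WL t) : x ∈ F.Wlin t 0 :=
  WS_le h fun _ => by simp

/-- a contraction which does not move the digits -/
theorem Closed.fix (hF : F.Closed) (hE : F.Exh) [Finite ι] {e : ι → WittVector p K} {q : ℝ}
    (hq : 1 < q) (step : ∀ t, s ≤ t → (∀ i, e i ∈ F.WT J t) → ∀ i, e i ∈ F.WT J (s + (t - s) / q))
    (i : ι) : e i ∈ F.WT J s := by
  obtain ⟨t, -, ht⟩ := hE.WT J e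
  exact contr (P := fun t => ∀ i, e i ∈ F.WT J t) (fun _ _ h H i => WT_le (H i) le_rfl h)
    (fun _ H i => hF.WT fun ε hε => H ε hε i) hq ht step i

variable [Pf p K]

theorem WL_dv {x : WittVector p K} (h : x ∈ F.WL t) : dv x ∈ F.WL t := WS_dv (τ := fun _ => t) h

theorem WL_si_pow {x : WittVector p K} (h : x ∈ F.WL t) (k : ℕ) :
    (si p K ^ k) x ∈ F.WL (t / p ^ k) := WS_si_pow (τ := fun _ => t) h k

theorem WL_si {x : WittVector p K} (h : x ∈ F.WL t) : si p K x ∈ F.WL (t / p) :=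
  WS_si (τ := fun _ => t) h

/-- a contraction after the division by `p`: linear growth implies boundedness -/
theorem Closed.bound (hF : F.Closed) {e : ι → WittVector p K} {q : ℝ} (hq : 1 < q)
    (he : ∀ i, e i ∈ F.Wlin α β) (step : ∀ J t, s ≤ t → (∀ i, e i ∈ F.WT J t) →
      ∀ i, (p : WittVector p K) * e i ∈ F.WT J (s + (t - s) / q)) (i : ι) : e i ∈ F.WL s := by
  have h1 : ∀ (k J : ℕ) i, e i ∈ F.WT (J + 1) (s + (|α - s| + |β| * (J + k)) / q ^ k) := by
    intro k
    induction k with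
    | zero =>
      refine fun J i => WT_le (mem_WS.1 (he i) J) le_rfl ?_
      have := mul_le_mul_of_nonneg_right (le_abs_self β) (Nat.cast_nonneg (α := ℝ) J)
      have := le_abs_self (α - s)
      simp only [pow_zero, div_one, Nat.cast_zero, add_zero]
      linarith
    | succ k ih =>
      refine fun J i => WT_le (WT_of_p_mul (step _ _ (le_add_of_nonneg_right (by positivity))
        (ih (J + 1)) i)) le_rfl (le_of_eq ?_)
      rw [add_sub_cancel_left, div_div, ← pow_succ]
      push_cast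
      ring
  refine mem_WS.2 fun J => hF.WT fun ε hε => ?_
  obtain ⟨k, hk⟩ := lin_small (|α - s| + |β| * J) |β| hq hε
  refine WT_le (h1 k J i) le_rfl ?_
  rw [mul_add, ← add_assoc]
  linarith

/-- fixed vectors -/
theorem Closed.fix_mulVec (hF : F.Closed) (hE : F.Exh) [Fintype ι] {h : ℕ} (hh : 0 < h)
    {B : Matrix ι ι (WittVector p K)} {e : ι → WittVector p K} (hB : ∀ i j, B i j ∈ F.WT J b)
    (hb : 0 ≤ b) (he : e = B *ᵥ fun j => (si p K ^ h) (e j)) (i : ι) : e i ∈ F.WT J (2 * b) := by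
  refine hF.fix hE one_lt_two (fun t ht H i => ?_) i
  rw [he]
  refine WT_le (WT_mulVec hB (fun j => WT_si_pow (H j) h) i) le_rfl ?_
  have := div_le_div_of_nonneg_left (by linarith : 0 ≤ t) two_pos (two_le_pow (p := p) hh)
  linarith

/-- B2 -/
theorem Closed.B2 (hF : F.Closed) {h : ℕ} (hh : 0 < h) {x : WittVector p K} (hx : x ∈ F.Wlin α β)
    (ht : 0 ≤ t) (hy : Dop p K h x ∈ F.WL t) : x ∈ F.WL t := by
  refine hF.bound (e := fun _ : Unit => x) one_lt_two (fun _ => hx) (fun J u hu H _ => ?_) ()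
  have e : (p : WittVector p K) * x = (si p K ^ h) x - Dop p K h x := by rw [Dop_apply]; ring
  have := div_le_div_of_nonneg_left (by linarith : 0 ≤ u) two_pos (two_le_pow (p := p) hh)
  rw [e]
  exact sub_mem (WT_le (WT_si_pow (H ()) h) le_rfl (by linarith))
    (WT_le (WL.WT hy J) le_rfl (by linarith))

/-- B1 with losses, for linear growth -/
theorem Closed.B1 (hF : F.Closed) [Fintype ι] [Fintype κ] {g : Matrix κ ι (WittVector p K)}
    {A : Matrix κ κ (WittVector p K)} {B : Matrix ι ι (WittVector p K)}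
    (hg : ∀ i j, g i j ∈ F.Wlin α β) (hA : ∀ i j, A i j ∈ F.WL a) (hB : ∀ i j, B i j ∈ F.WL b)
    (hab : 0 ≤ a + b) (h : (p : WittVector p K) • g = A * g.map (si p K) * B) (i : κ) (j : ι) :
    g i j ∈ F.WL (2 * (a + b)) := by
  refine hF.bound (e := fun l : κ × ι => g l.1 l.2) one_lt_two (fun _ => hg _ _)
    (fun J u hu H l => ?_) (i, j)
  have e : (p : WittVector p K) * g l.1 l.2 = (A * g.map (si p K) * B) l.1 l.2 := by
    rw [← h]; rfl
  have := div_le_div_of_nonneg_left (by linarith : 0 ≤ u) two_pos (two_le_p (p := p))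
  rw [e]
  exact WT_le (WT_mmul (WT_mmul (fun i j => WL.WT (hA i j) J) fun i j => WT_si (H (i, j)))
    (fun i j => WL.WT (hB i j) J) _ _) le_rfl (by linarith)

/-- B1: a map between lattices is integral -/
theorem Closed.B1' (hF : F.Closed) [Fintype ι] [Fintype κ] [DecidableEq ι]
    {g : Matrix κ ι (WittVector p K)} {A' : Matrix κ κ (WittVector p K)}
    {A B : Matrix ι ι (WittVector p K)} (hg : ∀ i j, g i j ∈ F.Wlin α β)
    (hA : ∀ i j, A' i j ∈ F.WL a) (hB : ∀ i j, B i j ∈ F.WL b) (hab : 0 ≤ a + b)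
    (hAB : A * B = (p : WittVector p K) • (1 : Matrix ι ι (WittVector p K)))
    (h : A' * g.map (si p K) = g * A) (i : κ) (j : ι) : g i j ∈ F.WL (2 * (a + b)) :=
  hF.B1 hg hA hB hab (by rw [h, Matrix.mul_assoc, hAB, Matrix.mul_smul, Matrix.mul_one]) i j

/-- the inverse of a bounded unit has linear growth -/
theorem lin_inv {y y' : WittVector p K} (hy : y ∈ F.WL t) (h : y * y' = 1)
    (h0 : y'.coeff 0 ∈ F.F s) (hst : 0 ≤ s + t) : y' ∈ F.Wlin s (s + t) := by
  obtain ⟨z, hz⟩ : ∃ z, z = -(tm p (y'.coeff 0) * dv y) := ⟨_, rfl⟩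
  have h1 : tm p (y'.coeff 0) * y = 1 - p * z := by
    have := congrArg (fun x => WittVector.coeff x 0) h
    simp only [mul_coeff_zero, one_coeff_zero] at this
    conv_lhs => rw [← tm_add_dv y, mul_add, ← map_mul, mul_comm (y'.coeff 0), this, map_one]
    rw [hz]; ring
  have h2 : z ∈ F.WL (s + t) := by
    rw [hz]
    exact neg_mem (WL_mul (WL_tm h0) (WL_dv hy))
  refine mem_WS.2 fun J => ?_
  have h3 : y' = tm p (y'.coeff 0) * ∑ j ∈ Finset.range (J + 1), ((p : WittVector p K) * z) ^ j +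
      p ^ (J + 1) * (z ^ (J + 1) * y') := by
    have := mul_neg_geom_sum ((p : WittVector p K) * z) (J + 1)
    rw [← h1, mul_pow] at this
    generalize ∑ j ∈ Finset.range (J + 1), ((p : WittVector p K) * z) ^ j = G at this ⊢
    generalize tm p (y'.coeff 0) = c at this ⊢
    linear_combination (-y') * this + (c * G) * h
  rw [h3]
  refine add_mem (WT_mul (WT_tm h0) (sum_mem fun j hj => WL.WT ?_ _)) (WT_of_cg (cg_pow_mul _ _))
  have h4 := WL_prod (S := Finset.range j) (a := fun _ => (p : WittVector p K) * z)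
    (u := fun _ => s + t) fun _ _ => WL_p_mul.2 h2
  rw [Finset.prod_const, Finset.sum_const, Finset.card_range, nsmul_eq_mul] at h4
  have : (j : ℝ) ≤ J := by exact_mod_cast Finset.mem_range_succ_iff.1 hj
  exact WL_le h4 (by nlinarith)

/-- B0: a class of linear growth has a bounded representative -/
theorem move {h : ℕ} (hh : 0 < h) {x : WittVector p K} (hx : x ∈ F.Wlin α β) (hβ : 0 ≤ β)
    (hα : 2 * β ≤ α) : ∃ y ∈ F.Wlin (α + β) β, x + Dop p K h y ∈ F.WL α := by
  let y : ℕ → WittVector p K := fun j => (fun z => dv (rho h z))^[j] x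
  have hs : ∀ j, y (j + 1) = dv (rho h (y j)) := fun j => Function.iterate_succ_apply' _ _ _
  have hr : ∀ z ∈ F.Wlin α β, rho h z ∈ F.WS fun J => max α ((α + β * (J + 1 : ℕ)) / 2) := by
    refine fun z hz => add_mem (mem_WS.2 fun J => WT_tm (le ?_ (le_max_left _ _)))
      (WS_le (WS_si_pow (WS_dv hz) h) fun J => le_max_of_le_right ?_)
    · simpa using mem_WS.1 hz 0 0 one_pos
    · exact div_le_div_of_nonneg_left (add_nonneg (by linarith) (by positivity)) two_pos
        (two_le_pow hh)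
  have hy : ∀ j, y j ∈ F.Wlin α β := by
    intro j
    induction j with
    | zero => exact hx
    | succ j ih =>
      rw [hs]
      refine WS_le (WS_dv (hr _ ih)) fun J => ?_
      have : 0 ≤ β * J := by positivity
      push_cast
      exact max_le (by linarith) (by linarith)
  refine ⟨psum fun j => dv (y j), WS_psum fun j => WS_le (WS_dv (hy j)) fun J => by
    push_cast; linarith, mem_WL'.2 fun J => ?_⟩
  have h1 : ∀ J, x + Dop p K h (∑ j ∈ Finset.range J, (p : WittVector p K) ^ j * dv (y j)) =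
      ∑ j ∈ Finset.range J, (p : WittVector p K) ^ j * tm p ((rho h (y j)).coeff 0) +
        p ^ J * y J := by
    intro J
    induction J with
    | zero => simp [y]
    | succ J ih =>
      rw [Finset.sum_range_succ, Finset.sum_range_succ, map_add, ← add_assoc, ih, Dop_pow_mul, hs]
      linear_combination (-(p : WittVector p K) ^ J) * (tm_add_dv (rho h (y J)) +
        rho_eq h (y J))
  refine WT_cg ?_ ((Cg.refl x).add ((psum_cg _ J).Dop h)).symm
  rw [h1]
  refine add_mem (sum_mem fun j _ => WL.WT (WS_mul_zero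
    (mem_W0.1 (F.W0.pow_mem (natCast_mem F.W0 p) j)) (WL_tm ?_)) J) (WT_of_cg (cg_pow_mul _ _))
  have := mem_WS.1 (hr _ (hy j)) 0 0 one_pos
  rw [pow_zero, one_mul] at this
  exact le this (max_le le_rfl (by push_cast; linarith))

end Fil

end P261
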