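import Vale.Agent.P261Z.B.Vop
import Vale.Agent.P261Z.C2.Lang
import Vale.Agent.P261Z.W.Aic

/-!
# P261Z, block B: existence of Igusa structures over rings in which monic polynomials have roots
-/

open WittVector Matrix Polynomial

noncomputable section

namespace P261

open C2

variable {p : ℕ} [hp : Fact p.Prime] {K : Type} [CommRing K]

omit hp in
theorem Aic.root (hK : Aic K) {g : K[X]} {N : ℕ} (hg : g.natDegree < N) : ∃ t, t ^ N = g.eval t := by
  rcases subsingleton_or_nontrivial K with h | h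
  · exact ⟨0, Subsingleton.elim _ _⟩
  have h1 : g.degree < N := degree_le_natDegree.trans_lt (by exact_mod_cast hg)
  obtain ⟨t, ht⟩ := hK _ (monic_X_pow_sub h1) (by
    rw [natDegree_sub_eq_left_of_natDegree_lt (by rwa [natDegree_X_pow]), natDegree_X_pow]
    omega)
  exact ⟨t, by simpa [sub_eq_zero] using ht⟩

/-- extension by zero -/
def io (R : Type) [CommRing R] (m : ℕ) : (Fin m → R) →ₗ[R] (Fin (m + 1) → R) where
  toFun v := Fin.snoc v 0
  map_add' v w := funext fun i => by refine Fin.lastCases ?_ (fun i => ?_) i <;> simp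
  map_smul' a v := funext fun i => by refine Fin.lastCases ?_ (fun i => ?_) i <;> simp

omit hp in
theorem io_last {m : ℕ} (v : Fin m → K) : io K m v (Fin.last m) = 0 := Fin.snoc_last (α := fun _ => K) _ _

omit hp in
theorem io_cast {m : ℕ} (v : Fin m → K) (i : Fin m) : io K m v i.castSucc = v i :=
  Fin.snoc_castSucc (α := fun _ => K) _ _ _

variable [Pf p K]

theorem Vop_Cm {m : ℕ} (c v : Fin (m + 1) → WittVector p K) : Vop (Cm c) v =
    Fin.cons 0 (fun j => si p K (v j.castSucc)) + si p K (v (Fin.last m)) • c := by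
  funext i
  have e : Vop (Cm c) v i = (Cm c * Matrix.of fun j (_ : Unit) => si p K (v j)) i () := rfl
  rw [e]
  refine Fin.cases ?_ (fun j => ?_) i
  · rw [Lg.Cm_mul_zero]; simp [mul_comm]
  · rw [Lg.Cm_mul_succ]; simp [mul_comm]

theorem surj₁ (L : WittVector p K →+ WittVector p K) (h : ∀ b : K, ∃ x, (L x).coeff 0 = b) :
    Function.Surjective L := fun b => by
  obtain ⟨x, hx⟩ := Lg.surj (I := Unit) (J := Unit) (L.compLeft Unit)
    (fun b => (h ((b ()).coeff 0)).elim fun x hx => ⟨fun _ => x, fun _ => hx⟩) fun _ => b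
  exact ⟨x (), congrFun hx ()⟩

theorem Aic.as (hK : Aic K) (b : WittVector p K) : ∃ a, si p K a - a = b :=
  surj₁ ((si p K).toAddMonoidHom - AddMonoidHom.id _) (fun b => by
    obtain ⟨x, hx, -⟩ := Lg.root (p := p) hK 0 isUnit_one b
    refine ⟨tm p x, ?_⟩
    show WittVector.constantCoeff (si p K (tm p x) - tm p x) = b
    rw [map_sub]
    simpa using hx) b

/-- the coordinates of a fixed vector as functions of the last one -/
def aa (c : ℕ → WittVector p K) : ℕ → WittVector p K →+ WittVector p K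
  | 0 => (AddMonoidHom.mulLeft (c 0)).comp (si p K).toAddMonoidHom
  | j + 1 => (si p K).toAddMonoidHom.comp (aa c j) +
      (AddMonoidHom.mulLeft (c (j + 1))).comp (si p K).toAddMonoidHom

theorem aa_zero (c : ℕ → WittVector p K) (x : WittVector p K) : aa c 0 x = c 0 * si p K x := rfl

theorem aa_succ (c : ℕ → WittVector p K) (j : ℕ) (x : WittVector p K) :
    aa c (j + 1) x = si p K (aa c j x) + c (j + 1) * si p K x := rfl

section fix

variable {c : ℕ → WittVector p K} {h : ℕ} (h1 : ∀ i < h + 1, (c i).coeff 0 = 0)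
include h1

theorem aa_low (x : WittVector p K) (j : ℕ) (hj : j < h + 1) : (aa c j x).coeff 0 = 0 := by
  induction j with
  | zero => rw [aa_zero, WittVector.mul_coeff_zero, h1 0 hj, zero_mul]
  | succ j ih => rw [aa_succ, add_coeff_zero, WittVector.mul_coeff_zero, h1 _ hj, coeff_si, ih (by omega),
      map_zero, zero_mul, add_zero]

theorem aa_mid (x : WittVector p K) :
    (aa c (h + 1) x).coeff 0 = (c (h + 1)).coeff 0 * rt p K (x.coeff 0) := by
  rw [aa_succ, add_coeff_zero, WittVector.mul_coeff_zero, coeff_si, aa_low h1 x h h.lt_succ_self, map_zero,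
    zero_add, coeff_si]

theorem aa_poly (h2 : IsUnit ((c (h + 1)).coeff 0)) (i : ℕ) : ∃ g : K[X], g.natDegree < p ^ i ∧
    IsUnit (g.coeff 0) ∧ ∀ t, (aa c (h + 1 + i) (tm p (t ^ p ^ (i + 1)))).coeff 0 = t * g.eval t := by
  induction i with
  | zero =>
    refine ⟨C ((c (h + 1)).coeff 0), by simp, by simpa using h2, fun t => ?_⟩
    rw [add_zero, aa_mid h1, zero_add, pow_one, teichmuller_coeff_zero, rt_pow', eval_C, mul_comm]
  | succ i ih =>
    obtain ⟨g, g1, g2, g3⟩ := ih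
    obtain ⟨d, hd⟩ : ∃ d, p ^ (i + 1) = d + 2 :=
      ⟨_, (Nat.sub_add_cancel (Nat.one_lt_pow i.succ_ne_zero hp.out.one_lt)).symm⟩
    have : p ^ i < p ^ (i + 1) := Nat.pow_lt_pow_right hp.out.one_lt i.lt_succ_self
    refine ⟨g.map (rt p K) + C ((c (h + 1 + i + 1)).coeff 0) * X ^ (d + 1), ?_, ?_, fun t => ?_⟩
    · exact (natDegree_add_le _ _).trans_lt (max_lt (natDegree_map_le.trans_lt (by omega))
        ((natDegree_C_mul_X_pow_le _ _).trans_lt (by omega)))
    · simpa using g2.map (rt p K)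
    · rw [← add_assoc, aa_succ, add_coeff_zero, WittVector.mul_coeff_zero, coeff_si, coeff_si,
        teichmuller_coeff_zero, pow_succ' p (i + 1), pow_mul, g3, ← pow_mul, mul_comm p, pow_mul,
        rt_pow', map_mul, rt_pow', ← eval_map_apply, rt_pow', hd]
      simp only [eval_add, eval_mul, eval_C, eval_pow, eval_X]
      ring

theorem aa_fix (hK : Aic K) (h2 : IsUnit ((c (h + 1)).coeff 0)) (d : ℕ) :
    ∃ η : (WittVector p K)ˣ, aa c (h + d + 1) η = η := by
  rw [add_right_comm]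
  obtain ⟨g, g1, g2, g3⟩ := aa_poly h1 h2 d
  have hlt : p ^ d < p ^ (d + 1) := Nat.pow_lt_pow_right hp.out.one_lt d.lt_succ_self
  let L := AddMonoidHom.id _ - aa c (h + 1 + d)
  have hL : ∀ t, (L (tm p (t ^ p ^ (d + 1)))).coeff 0 = t ^ p ^ (d + 1) - t * g.eval t := fun t => by
    show WittVector.constantCoeff (tm p (t ^ p ^ (d + 1)) - aa c (h + 1 + d) _) = _
    rw [map_sub, WittVector.constantCoeff_apply, WittVector.constantCoeff_apply, g3]
    rfl
  obtain ⟨N, hN⟩ : ∃ N, p ^ (d + 1) = N + 1 + 1 := ⟨p ^ (d + 1) - 2, by omega⟩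
  obtain ⟨t, ht⟩ := hK.root (g := g) (N := N + 1) (by omega)
  have hu : IsUnit t := by
    have := g.divX_mul_X_add
    apply_fun eval t at this
    rw [← ht, eval_add, eval_mul, eval_X, eval_C] at this
    refine isUnit_of_dvd_unit ⟨t ^ N - g.divX.eval t, ?_⟩ g2
    linear_combination this
  obtain ⟨z, hz⟩ := surj₁ L (fun b => by
    obtain ⟨s, hs⟩ := hK.root (g := g * X + C b) (N := p ^ (d + 1))
      ((natDegree_add_le _ _).trans_lt (max_lt (natDegree_mul_le.trans_lt (by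
        have := natDegree_X_le (R := K); omega)) (by rw [natDegree_C]; omega)))
    exact ⟨_, (hL s).trans (by rw [hs]; simp [mul_comm])⟩) (dv (L (tm p (t ^ p ^ (d + 1)))))
  have h3 : L (tm p (t ^ p ^ (d + 1)) - p • z) = 0 := by
    rw [map_sub, map_nsmul, hz, nsmul_eq_mul, p_mul_dv, sub_self]
    rw [hL, ← ht, hN]
    ring
  have h4 : IsUnit (tm p (t ^ p ^ (d + 1)) - p • z) := isUnit_of_coeff (by
    rw [← WittVector.constantCoeff_apply, map_sub, nsmul_eq_mul, WittVector.constantCoeff_apply, WittVector.constantCoeff_apply,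
      coeff_p_mul_zero, sub_zero]
    exact hu.pow _)
  exact ⟨h4.unit, (sub_eq_zero.1 h3).symm⟩

end fix

/-- the statement for vectors -/
def Exv (K : Type) [CommRing K] [Pf p K] (h d : ℕ) : Prop :=
  ∀ c : Fin (h + d + 1) → WittVector p K,
    (∀ i : Fin (h + d + 1), (i : ℕ) = 0 → ∃ s : (WittVector p K)ˣ, c i = p * s) →
    (∀ i : Fin (h + d + 1), (i : ℕ) < h + 1 → (c i).coeff 0 = 0) →
    (∀ i : Fin (h + d + 1), (i : ℕ) = h + 1 → IsUnit ((c i).coeff 0)) →
    ∃ (ε : Fin d → Fin (h + d + 1) → WittVector p K) (e : Fin (h + d + 1) → WittVector p K),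
      (∀ l, Vop (Cm c) (ε l) = ε l) ∧ (Vop (Cm c) ^ (h + 1)) e = (p : WittVector p K) • e ∧
      ∀ S : Submodule (WittVector p K) (Fin (h + d + 1) → WittVector p K), (∀ l, ε l ∈ S) →
        (∀ j < h + 1, (Vop (Cm c) ^ j) e ∈ S) → ∀ v, v ∈ S

omit [Pf p K] in
theorem Au_zero (h : ℕ) (i j : Fin h) :
    Au p h (0 : ℕ → K) i j = V0 p (Fin 0) h (WittVector p K) (.inr i) (.inr j) := by
  simp only [Au, Cm, V0, of_apply, fromBlocks_apply₂₂, Pi.zero_apply, teichmuller_zero, neg_zero]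
  split_ifs <;> simp_all

theorem exv_zero (hK : Aic K) (h : ℕ) : Exv K h 0 := by
  intro (c : Fin (h + 1) → WittVector p K) h0 h1 _
  obtain ⟨T, T', a1, a2⟩ := lang0 (h + 1) K hK c (fun l => h1 l l.2) h0
  obtain ⟨ν, hν⟩ : ∃ ν : Matrix (Fin (h + 1)) (Fin 0 ⊕ Fin (h + 1)) (WittVector p K),
      ∀ i j, ν i (.inr j) = T i j := ⟨Matrix.of fun i => Sum.elim Fin.elim0 (T i), fun _ _ => rfl⟩
  obtain ⟨-, a3, a4⟩ := itw_frame (A := Cm c) (x := 0) h.succ_pos (ν := ν) (Matrix.ext fun i j => by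
    rcases j with j | j
    · exact j.elim0
    have := congrFun (congrFun a2 i) j
    simpa only [Nm_zero, mul_apply, Fintype.sum_sum_type, Finset.univ_eq_empty, Finset.sum_empty,
      zero_add, map_apply, hν, Au_zero] using this)
  refine ⟨Fin.elim0, _, fun l => l.elim0, by simpa using a3, fun S _ hS v => ?_⟩
  have e : v = ν *ᵥ Sum.elim Fin.elim0 (T' *ᵥ v) := by
    conv_lhs => rw [← one_mulVec v, ← a1, ← mulVec_mulVec]
    generalize T' *ᵥ v = w
    funext i
    simp [mulVec, dotProduct, hν]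
  rw [e, ← a4, frame_mulVec]
  exact add_mem (sum_mem fun l _ => l.elim0) (sum_mem fun j _ => S.smul_mem _ (hS j j.2))

theorem exv_succ (hK : Aic K) (h d : ℕ) (ih : Exv K h d) : Exv K h (d + 1) := by
  intro (c : Fin (h + d + 1 + 1) → WittVector p K) h0 h1 h2
  let c₀ : ℕ → WittVector p K := fun i => if hi : i < h + d + 1 + 1 then c ⟨i, hi⟩ else 0
  have b0 : ∀ i : Fin (h + d + 1 + 1), c₀ i = c i := fun i => dif_pos i.2
  have b1 : ∀ i < h + 1, (c₀ i).coeff 0 = 0 := fun i hi =>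
    (congrArg (coeff · 0) (b0 ⟨i, by omega⟩)).trans (h1 _ hi)
  have b2 : IsUnit ((c₀ (h + 1)).coeff 0) := by
    rw [b0 ⟨h + 1, by omega⟩]; exact h2 _ rfl
  obtain ⟨η, hη⟩ := aa_fix b1 hK b2 d
  obtain ⟨ε, hε⟩ : ∃ ε : Fin (h + d + 1 + 1) → WittVector p K, ∀ i, ε i = aa c₀ i η :=
    ⟨_, fun _ => rfl⟩
  have b3 : ε (Fin.last _) = η := (hε _).trans hη
  have b4 : Vop (Cm c) ε = ε := funext fun i => by
    rw [Vop_Cm, b3]
    refine Fin.cases ?_ (fun j => ?_) i
    · simp [hε, aa_zero, ← b0, mul_comm]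
    · simp [hε, aa_succ, ← b0, mul_comm]
  obtain ⟨c', hc'⟩ : ∃ c' : Fin (h + d + 1) → WittVector p K,
      ∀ i, c' i = -(η⁻¹).val * ε i.castSucc := ⟨_, fun _ => rfl⟩
  obtain ⟨ε', e', a1, a2, a3⟩ := ih c' (fun i hi => by
      obtain ⟨s, hs⟩ := h0 0 rfl
      refine ⟨-η⁻¹ * s * Units.map (si p K).toMonoidHom η, ?_⟩
      rw [hc', hε, Fin.val_castSucc, hi, aa_zero, show c₀ 0 = c 0 from b0 0, hs]
      simp only [Units.val_mul, Units.val_neg, Units.coe_map]
      show _ = _ * (_ * si p K η)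
      ring)
    (fun i hi => by rw [hc', WittVector.mul_coeff_zero, hε, Fin.val_castSucc, aa_low b1 _ _ hi,
      mul_zero])
    (fun i hi => by
      rw [hc', WittVector.mul_coeff_zero, hε, Fin.val_castSucc, hi, aa_mid b1]
      exact (isUnit_coeff (-η⁻¹).isUnit).mul (b2.mul ((isUnit_coeff η.isUnit).map _)))
  have b5 : ∀ v, Vop (Cm c) (io _ _ v) =
      io _ _ (Vop (Cm c') v) + ((η⁻¹).val * si p K (v (Fin.last _))) • ε := fun v => by
    rw [Vop_Cm, Vop_Cm]
    simp only [io_last, io_cast, map_zero, zero_smul, add_zero]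
    funext i
    refine Fin.lastCases ?_ (fun i => ?_) i
    · rw [Pi.add_apply, io_last, Pi.smul_apply, b3, ← Fin.succ_last, Fin.cons_succ]
      simp [mul_right_comm]
    · rw [Pi.add_apply, io_cast, Pi.add_apply, Pi.smul_apply, Pi.smul_apply, hc', smul_eq_mul,
        smul_eq_mul]
      refine Fin.cases ?_ (fun j => ?_) i
      · rw [Fin.castSucc_zero, Fin.cons_zero, Fin.cons_zero]; ring
      · rw [← Fin.succ_castSucc, Fin.cons_succ, Fin.cons_succ]; ring
  have b6 : ∀ (k : ℕ) v, ∃ x : WittVector p K, (Vop (Cm c) ^ k) (io _ _ v) =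
      io _ _ ((Vop (Cm c') ^ k) v) + x • ε := fun k v => by
    induction k with
    | zero => exact ⟨0, by simp⟩
    | succ k ih =>
      obtain ⟨x, hx⟩ := ih
      exact ⟨_, by rw [Vop_succ, hx, map_add, b5, Vop_smul, b4, add_assoc (io _ _ _), ← add_smul,
        Vop_succ]⟩
  choose a ha using fun l => hK.as (-((η⁻¹).val * si p K (ε' l (Fin.last _))))
  obtain ⟨x, hx⟩ := b6 (h + 1) e'
  obtain ⟨y, hy⟩ := (Dop_bijective (p := p) (K := K) (h + 1)).2 (-x)
  refine ⟨Fin.cons ε fun l => io _ _ (ε' l) + a l • ε, io _ _ e' + y • ε, fun l => ?_, ?_,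
    fun S s1 s2 (v : Fin (h + d + 1 + 1) → _) => ?_⟩
  · refine Fin.cases b4 (fun l => ?_) l
    rw [Fin.cons_succ, map_add, b5, a1, Vop_smul, b4, add_assoc (io _ _ _), ← add_smul,
      eq_add_of_sub_eq (ha l), add_neg_cancel_left]
  · rw [Dop_apply, sub_eq_iff_eq_add] at hy
    rw [map_add, hx, a2, Vop_pow_smul, Vop_pow_fix b4, hy, map_smul, add_assoc (_ • _), ← add_smul,
      add_neg_cancel_left, smul_add, mul_smul]
  · have s0 : ε ∈ S := s1 0
    have s3 := a3 (S.comap (io _ _)) (fun l => (S.add_mem_iff_left (S.smul_mem _ s0)).1 (s1 l.succ))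
      (fun j hj => by
        obtain ⟨z, hz⟩ := b6 j e'
        have := s2 j hj
        rw [map_add, hz, Vop_pow_smul, Vop_pow_fix b4, add_assoc (io _ _ _), ← add_smul] at this
        exact (S.add_mem_iff_left (S.smul_mem _ s0)).1 this)
    have e : v = io _ _ (Fin.init (v - (v (Fin.last _) * (η⁻¹).val) • ε)) +
        (v (Fin.last _) * (η⁻¹).val) • ε := funext fun i => by
      refine Fin.lastCases ?_ (fun i => ?_) i
      · simp [io_last, b3]
      · simp [io_cast, Fin.init]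
    rw [e]
    exact add_mem (s3 _) (S.smul_mem _ s0)

theorem exv (hK : Aic K) (h d : ℕ) : Exv K h d :=
  Nat.rec (exv_zero hK h) (exv_succ hK h) d

/-- **EXI** -/
theorem exi (hK : Aic K) {E : Type} [Fintype E] [DecidableEq E] {n h : ℕ} (hh : 0 < h)
    (hn : n = h + Fintype.card E) (c : Fin n → WittVector p K)
    (h0 : ∀ i : Fin n, (i : ℕ) = 0 → ∃ s : (WittVector p K)ˣ, c i = p * s)
    (h1 : ∀ i : Fin n, (i : ℕ) < h → (c i).coeff 0 = 0)
    (h2 : ∀ i : Fin n, (i : ℕ) = h → IsUnit ((c i).coeff 0)) :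
    ∃ (μ : Matrix (E ⊕ Fin h) (Fin n) (WittVector p K))
      (ν : Matrix (Fin n) (E ⊕ Fin h) (WittVector p K)), μ * ν = 1 ∧ ν * μ = 1 ∧
      Cm c * ν.map (si p K) = ν * V0 p E h _ ∧ V0 p E h _ * μ.map (si p K) = μ * Cm c := by
  obtain ⟨h, rfl⟩ : ∃ m, h = m + 1 := ⟨h - 1, by omega⟩
  obtain rfl : n = h + Fintype.card E + 1 := by omega
  obtain ⟨ε, e, a1, a2, a3⟩ := exv hK h _ c h0 h1 h2
  let σ := Fintype.equivFin E
  have b1 := frame_itw (h := h + 1) (x := 0) (fun l => a1 (σ l)) (a2.trans (by simp))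
  rw [Nm_zero] at b1
  have b2 := a3 (LinearMap.range (frame (Cm c) (h + 1) (fun l => ε (σ l)) e).mulVecLin)
    (fun l => ⟨Pi.single (.inl (σ.symm l)) 1, by
      rw [mulVecLin_apply, mulVec_single_one, frame_inl, σ.apply_symm_apply]⟩)
    fun j hj => ⟨Pi.single (.inr ⟨j, hj⟩) 1, by rw [mulVecLin_apply, mulVec_single_one, frame_inr]⟩
  generalize frame (Cm c) (h + 1) (fun l => ε (σ l)) e = ν at b1 b2
  choose y hy using fun j => b2 (Pi.single j 1)
  have b3 : ν * (Matrix.of fun i j => y j i) = 1 := Matrix.ext fun i j =>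
    (congrFun (hy j) i).trans (by rw [Pi.single_apply, Matrix.one_apply])
  generalize (Matrix.of fun i j => y j i) = μ at b3
  have b4 : μ * ν = 1 := (mul_eq_one_comm_of_card_eq _ _ _ (by simp; omega)).1 b3
  refine ⟨μ, ν, b4, b3, b1, ?_⟩
  have : ν.map (si p K) * μ.map (si p K) = 1 := by
    rw [← Matrix.map_mul, b3, Matrix.map_one _ (map_zero _) (map_one _)]
  rw [← Matrix.mul_one (μ * _), ← this, ← Matrix.mul_assoc, Matrix.mul_assoc μ, b1,
    ← Matrix.mul_assoc μ, b4, Matrix.one_mul]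
  rfl

/-- the normal form -/
theorem exi_Au (hK : Aic K) {E : Type} [Fintype E] [DecidableEq E] {n h : ℕ} (hh : 0 < h)
    (hn : n = h + Fintype.card E) (u : ℕ → K) (h1 : ∀ i, 0 < i → i < h → u i = 0)
    (h2 : h < n → IsUnit (u h)) : ∃ (μ : Matrix (E ⊕ Fin h) (Fin n) (WittVector p K))
      (ν : Matrix (Fin n) (E ⊕ Fin h) (WittVector p K)), μ * ν = 1 ∧ ν * μ = 1 ∧
      Au p n u * ν.map (si p K) = ν * V0 p E h _ ∧ V0 p E h _ * μ.map (si p K) = μ * Au p n u := by
  refine exi hK hh hn _ (fun i hi => ⟨1, by simp [hi]⟩) (fun i hi => ?_) fun i hi => ?_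
  · split_ifs with h0
    · simpa using coeff_p_mul_zero (p := p) (1 : WittVector p K)
    · rw [h1 i (Nat.pos_of_ne_zero h0) hi]; simp
  · rw [if_neg (by omega), hi]
    exact isUnit_coeff ((h2 (hi ▸ i.2)).map (teichmuller p)).neg

/-- every perfect ring is a subring of a perfect ring in which monic polynomials have roots -/
theorem exists_inj_aic (C : Type) [CommRing C] [Pf p C] :
    ∃ (L : Type) (_ : CommRing L) (_ : Pf p L) (f : C →+* L), Function.Injective f ∧ Aic L := by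
  obtain ⟨D, _, _, h1, h2⟩ := exists_aic C
  have : Ch p D := Ch.of_hom (algebraMap C D)
  refine ⟨_, inferInstance, h2.pf, (Ideal.Quotient.mk (nilradical D)).comp (algebraMap C D),
    (injective_iff_map_eq_zero _).2 fun x hx => ?_, h2.of_surj _ Ideal.Quotient.mk_surjective⟩
  obtain ⟨N, hN⟩ := mem_nilradical.1 (Ideal.Quotient.eq_zero_iff_mem.1 hx)
  exact eq_zero_of_pow (N := N) (FaithfulSMul.algebraMap_injective C D (by
    rw [map_pow, hN, map_zero]))

/-- an Igusa structure exists after an injective change of rings -/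
theorem exi_inj {E : Type} [Fintype E] [DecidableEq E] {n h : ℕ} (hh : 0 < h)
    (hn : n = h + Fintype.card E) (u : ℕ → K) (h1 : ∀ i, 0 < i → i < h → u i = 0)
    (h2 : h < n → IsUnit (u h)) : ∃ (L : Type) (_ : CommRing L) (_ : Pf p L) (f : K →+* L)
      (μ : Matrix (E ⊕ Fin h) (Fin n) (WittVector p L))
      (ν : Matrix (Fin n) (E ⊕ Fin h) (WittVector p L)), Function.Injective f ∧ μ * ν = 1 ∧
      ν * μ = 1 ∧ V0 p E h _ * μ.map (si p L) = μ * (Au p n u).map (wm p f) := by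
  obtain ⟨L, _, _, f, a1, a2⟩ := exists_inj_aic (p := p) K
  obtain ⟨μ, ν, b1, b2, -, b3⟩ := exi_Au a2 hh hn (fun i => f (u i))
    (fun i h h' => by rw [h1 i h h', map_zero]) fun h => (h2 h).map f
  exact ⟨L, _, _, f, μ, ν, a1, b1, b2, by rw [Au_map, b3]⟩

end P261
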