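import Vale.Agent.P261Z.B.B0
import Vale.Agent.P261Z.B.Exi
import Vale.Agent.P261Z.B7.Move
import Vale.Agent.P261Z.B7.FF1

/-!
# P261Z, block B: the Igusa structure on the normal form of corank one
-/

open WittVector Matrix

noncomputable section

namespace P261.B7

variable {p : ℕ} [hp : Fact p.Prime]

/-- the pole filtration of a pair -/
def Tri.F (T : Tri p) : Fil p T.K := Fil.pole T.C T.w T.w_mem fun _ => T.of_pow

theorem Tri.F_closed (T : Tri p) : T.F.Closed := Fil.closed_pole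

theorem Tri.F_exh (T : Tri p) : T.F.Exh := Fil.exh_pole T.exh

theorem Tri.F_zero (T : Tri p) {x : T.K} : x ∈ T.F.F 0 ↔ x ∈ T.C :=
  ⟨fun h => T.sat x (Fil.pole_zero_iff_rt.1 h), Fil.pole_of_mem⟩

theorem Tri.WL_zero (T : Tri p) {x : WittVector p T.K} : x ∈ T.F.WL 0 ↔ x ∈ WI p T.C :=
  Fil.mem_WL.trans ((forall_congr' fun j => by rw [mul_zero, T.F_zero]).trans mem_wsub.symm)

theorem Tri.BD_iff (T : Tri p) {x : WittVector p T.K} : x ∈ T.F.BD ↔ x ∈ Bd p T.C := by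
  refine ⟨fun ⟨t, ht⟩ => ?_, fun ⟨s, _, h⟩ => ?_⟩
  · obtain ⟨N, hN⟩ := exists_nat_gt t
    refine ⟨T.w ^ N, by simpa using pow_mem T.w_mem N, ?_⟩
    rw [Units.val_pow_eq_pow_val, tm_pow]
    exact Fil.tm_mul_of_WL_pole ht hN
  · have := mul_mem (T.F_exh.tm (↑s⁻¹ : T.K)) (show _ ∈ T.F.BD from ⟨0, T.WL_zero.2 h⟩)
    rwa [← mul_assoc, ← tm_mul, s.inv_mul, tm_one, one_mul] at this

/-- the saturation of the image of a perfect ring in a localisation -/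
theorem Tri.exists_loc (E : Type) [CommRing E] [Pf p E] (w : E) :
    ∃ (T : Tri p) (j : E →+* T.K), (∀ y, j y ∈ T.C) ∧ j w = T.w ∧ (Aic E → Aic T.K) ∧
      ∀ (T' : Tri p) (g : E →+* T'.K), (∀ y, g y ∈ T'.C) → g w = T'.w →
        ∃ φ : T.Hom T', φ.f.comp j = g := by
  obtain ⟨K, _, _, _⟩ : ∃ (K : Type) (_ : CommRing K) (_ : Algebra E K), IsLocalization.Away w K :=
    ⟨Localization.Away w, _, _, inferInstance⟩
  have : Pf p K := Pf.loc (Submonoid.powers w) K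
  obtain ⟨u, hu⟩ := IsLocalization.Away.algebraMap_isUnit (S := K) w
  have hw : (u : K) ∈ (algebraMap E K).range := ⟨w, hu.symm⟩
  have hC : ∀ x : K, x ^ p ∈ (algebraMap E K).range → x ∈ (algebraMap E K).range :=
    fun _ ⟨y, hy⟩ => ⟨rt p E y, by rw [map_rt, hy, rt_pow']⟩
  obtain ⟨F, hF⟩ : ∃ F, F = Fil.pole _ u hw hC := ⟨_, rfl⟩
  have h0 : ∀ y, algebraMap E K y ∈ F.zero := fun y =>
    hF ▸ Fil.pole_of_mem (hw := hw) (hC := hC) ⟨y, rfl⟩
  refine ⟨⟨K, F.zero, u, hu ▸ h0 w, fun y hy => F.root (by rwa [rt_pow, mul_zero]), fun y => ?_,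
    fun y hy => Fil.Closed.of_pow (hF ▸ Fil.closed_pole) (b := 1) fun k => ?_⟩, algebraMap E K, h0,
    hu.symm, fun h => h.loc (Submonoid.powers w) K, fun T' g h1 h2 => ?_⟩
  · obtain ⟨N, a, h⟩ := IsLocalization.Away.surj w y
    exact ⟨N, by rw [hu, mul_comm, h]; exact h0 a⟩
  · have h1 : (rt p K ^ k) (↑u⁻¹ : K) ∈ F.F (1 / p ^ k) := Fil.root_pow k (by
      rw [rt_pow_pp, mul_one_div_cancel (pow_pos p_pos' k).ne', hF]
      exact Fil.pole_inv)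
    have := F.mul_mem h1 (hy k)
    rwa [← mul_assoc, ← map_mul, u.inv_mul, map_one, one_mul, add_comm] at this
  · obtain ⟨φ, hφ⟩ : ∃ φ : K →+* T'.K, ∀ y, φ (algebraMap E K y) = g y :=
      ⟨IsLocalization.Away.lift w (g := g) (h2 ▸ T'.w.isUnit), IsLocalization.Away.lift_eq _ _⟩
    have h3 : φ u = T'.w := by rw [hu, hφ, h2]
    subst hF
    exact ⟨⟨φ, fun y hy => T'.F_zero.1 (Fil.pole_maps_pole (hw := hw) (hC := hC) (by
      rintro _ ⟨y, rfl⟩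
      exact hφ y ▸ h1 y) h3 _ _ hy), h3⟩, RingHom.ext hφ⟩

/-- locally every monic polynomial has a root -/
theorem Loc.aic {T : Tri p} {P : (T' : Tri p) → T.Hom T' → Prop}
    (hP : ∀ T' f T'' (g : T'.Hom T''), P T' f → P T'' (g.comp f))
    (h : ∀ T' f, Aic T'.K → P T' f) : Loc T P := by
  obtain ⟨D, _, _, E, _, _, π, a1, a2, a3⟩ := exists_pf_aic (p := p) T.C
  refine Loc.ff D fun T' f ψ b1 b2 => .here ?_
  have := Pf.isReduced (p := p) (K := T'.K)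
  have := isReduced_of_injective T'.C.subtype Subtype.val_injective
  obtain ⟨g, b4, rfl⟩ : ∃ g : E →+* T'.K, (∀ y, g y ∈ T'.C) ∧ g.comp π = ψ := by
    obtain ⟨g, hg⟩ := a3 _ (ψ.codRestrict T'.C b1)
    exact ⟨T'.C.subtype.comp g, fun y => (g y).2, by rw [RingHom.comp_assoc, hg]; rfl⟩
  have := away_of_exh T.C T.w T.w_mem T.exh
  obtain ⟨T₁, j, c1, c2, c3, c4⟩ := Tri.exists_loc (p := p) E (π (algebraMap T.C D ⟨T.w, T.w_mem⟩))
  obtain ⟨g₁, c5⟩ := c4 T' g b4 ((b2 _).trans f.map_w)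
  obtain ⟨φ, hφ⟩ : ∃ φ : T.K →+* T₁.K, ∀ y : T.C, φ y = j (π (algebraMap T.C D y)) :=
    ⟨IsLocalization.Away.lift (⟨T.w, T.w_mem⟩ : T.C) (g := j.comp (π.comp (algebraMap T.C D)))
      (c2.symm ▸ T₁.w.isUnit :), IsLocalization.Away.lift_eq _ _⟩
  let f₁ : T.Hom T₁ := ⟨φ, fun y hy => hφ ⟨y, hy⟩ ▸ c1 _, (hφ ⟨T.w, T.w_mem⟩).trans c2⟩
  have b6 : g₁.comp f₁ = f := by
    have : g₁.f.comp φ = f.f := IsLocalization.ringHom_ext
      (Submonoid.powers (⟨T.w, T.w_mem⟩ : T.C)) (RingHom.ext fun c =>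
        (congrArg g₁.f (hφ c)).trans ((RingHom.congr_fun c5 _).trans (b2 c)))
    obtain ⟨f, _, _⟩ := f
    obtain rfl : _ = f := this
    rfl
  exact b6 ▸ hP _ _ _ g₁ (h T₁ f₁ (c3 a2))

theorem Hm_apply {K : Type} [CommRing K] (h : ℕ) (i j : Fin (h + 1)) : Hm p K h i j =
    if (i : ℕ) = j + 1 then 1 else if (i : ℕ) = 0 ∧ (j : ℕ) + 1 = h + 1 then (p : WittVector p K)
      else 0 := by
  have := i.2
  have := j.2
  simp only [Hm, of_apply, Fin.ext_iff, Fin.val_add_one, Fin.val_last]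
  split_ifs <;> first | omega | with_reducible rfl

theorem Nx_eq {K ι : Type} [CommRing K] [DecidableEq ι] (h : ℕ) (x : ι → WittVector p K) :
    Nx h x = Nm p (h + 1) x := by
  refine Matrix.ext fun i j => ?_
  rcases i with i | i <;> rcases j with j | j
  · simp [Nx, Nm, V0]
  · simp only [Nx, Nm, V0, lcol, Fin.ext_iff, fromBlocks_apply₁₂, of_apply, Matrix.add_apply,
      Matrix.zero_apply, zero_add, Fin.val_last, Nat.add_right_cancel_iff]
  · simp [Nx, Nm, V0]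
  · simp only [Nx, Nm, V0, fromBlocks_apply₂₂, of_apply, Matrix.add_apply, Matrix.zero_apply,
      add_zero, Hm_apply]

theorem A1_eq_Au {K : Type} [CommRing K] (h : ℕ) (u : K) :
    A1 p h u = C2.Au p (h + 2) fun i => if i = h + 1 then u else 0 := by
  refine Matrix.ext fun i j => ?_
  have := i.2
  have := j.2
  simp only [A1, C2.Au, C2.Cm, Matrix.sub_apply, Hm_apply, single_apply, of_apply, Fin.ext_iff,
    Fin.val_last]
  split_ifs <;> first | omega | simp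

theorem igu : IGU p := fun h T => by
  refine Loc.aic (fun T' _ T'' g ⟨x, h1, h2⟩ => ⟨wm p g.f x, Bd.map g.mem h1, ?_⟩) fun T' _ hK => ?_
  · have := h2.map g.mem
    rwa [Nx_map, A1_map, g.map_w] at this
  obtain ⟨μ, ν, a1, a2, a3, -⟩ := exi_Au (E := Unit) hK h.succ_pos (n := h + 2) rfl
    (fun i => if i = h + 1 then (T'.w : T'.K) else 0) (fun i _ hi => if_neg hi.ne)
    fun _ => by rw [if_pos rfl]; exact T'.w.isUnit
  rw [← A1_eq_Au] at a3
  obtain ⟨b1, B, b2, b3, -⟩ := A1_dieu (p := p) h T'.w_mem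
  obtain ⟨a, t, -, c1, c2, c3, c4⟩ := b0 T'.F_closed T'.F_exh h.succ_pos
    (fun i j => ⟨0, T'.WL_zero.2 (b1 i j)⟩) (fun i j => ⟨0, T'.WL_zero.2 (b2 i j)⟩) b3 a2 a1 a3
  refine ⟨Dop p _ (h + 1) (a ()), T'.BD_iff.1 ⟨t, c1 ()⟩, ν * Ua _ a, Ua _ (-a) * μ,
    fun i j => T'.BD_iff.1 ⟨t, c3 i j⟩, fun i j => T'.BD_iff.1 ⟨t, c2 i j⟩, ?_, ?_, ?_⟩
  · rw [Matrix.mul_assoc, ← Matrix.mul_assoc (Ua _ a), Ua_mul, add_neg_cancel, Ua_zero,
      Matrix.one_mul, a2]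
  · rw [Matrix.mul_assoc, ← Matrix.mul_assoc μ, a1, Matrix.one_mul, Ua_mul, neg_add_cancel, Ua_zero]
  · rw [Nx_eq]
    exact c4

end P261.B7
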