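import Vale.Agent.P261Z.B.Contr
import Vale.Agent.P261Z.L.Defs

/-!
# P261Z, block B: the operator `V` on vectors, frames
-/

open WittVector Matrix

noncomputable section

namespace P261

variable {p : ℕ} [hp : Fact p.Prime] {K : Type} [CommRing K] [Pf p K] {ι E : Type} [Fintype ι]

/-- the operator `v ↦ A * σ⁻¹ v` -/
def Vop (A : Matrix ι ι (WittVector p K)) : AddMonoid.End (ι → WittVector p K) where
  toFun v := A *ᵥ fun j => si p K (v j)
  map_zero' := by simp only [Pi.zero_apply, map_zero]; exact mulVec_zero A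
  map_add' v w := by simp only [Pi.add_apply, map_add]; exact mulVec_add A _ _

variable {A : Matrix ι ι (WittVector p K)} {v w e : ι → WittVector p K} {h : ℕ}

theorem Vop_apply (v : ι → WittVector p K) : Vop A v = A *ᵥ fun j => si p K (v j) := rfl

theorem Vop_smul (a : WittVector p K) (v : ι → WittVector p K) :
    Vop A (a • v) = si p K a • Vop A v := by
  simp only [Vop_apply, Pi.smul_apply, smul_eq_mul, map_mul]
  exact mulVec_smul A (si p K a) _

theorem Vop_succ (k : ℕ) (v : ι → WittVector p K) : (Vop A ^ (k + 1)) v = Vop A ((Vop A ^ k) v) := by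
  rw [pow_succ']; rfl

theorem Vop_add (j k : ℕ) (v : ι → WittVector p K) :
    (Vop A ^ (j + k)) v = (Vop A ^ j) ((Vop A ^ k) v) := by
  rw [pow_add]; rfl

theorem Vop_comm (j k : ℕ) (v : ι → WittVector p K) :
    (Vop A ^ j) ((Vop A ^ k) v) = (Vop A ^ k) ((Vop A ^ j) v) := by
  rw [← Vop_add, ← Vop_add, add_comm]

theorem Vop_pow_smul (k : ℕ) (a : WittVector p K) (v : ι → WittVector p K) :
    (Vop A ^ k) (a • v) = (si p K ^ k) a • (Vop A ^ k) v := by
  induction k with
  | zero => rfl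
  | succ k ih => rw [Vop_succ, ih, Vop_smul, Vop_succ, pow_succ' (si p K)]; rfl

theorem Vop_pow_p (k : ℕ) (v : ι → WittVector p K) :
    (Vop A ^ k) ((p : WittVector p K) • v) = (p : WittVector p K) • (Vop A ^ k) v := by
  rw [Vop_pow_smul, map_natCast]

theorem Vop_pow_fix (hv : Vop A v = v) (k : ℕ) : (Vop A ^ k) v = v := by
  induction k with
  | zero => rfl
  | succ k ih => rw [Vop_succ, ih, hv]

theorem Vop_pow_sum {ε : E → ι → WittVector p K} [Fintype E] (hε : ∀ i, Vop A (ε i) = ε i) (k : ℕ)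
    (a : E → WittVector p K) : (Vop A ^ k) (∑ i, a i • ε i) = ∑ i, (si p K ^ k) (a i) • ε i := by
  simp only [map_sum, Vop_pow_smul, Vop_pow_fix (hε _)]

theorem Vop_col {κ : Type} (g : Matrix ι κ (WittVector p K)) (l : κ) :
    Vop A (g.col l) = (A * g.map (si p K)).col l := rfl

theorem Fil.WT_Vop {F : Fil p K} {J : ℕ} {s t : ℝ} (hA : F.MW s A) (hv : ∀ i, v i ∈ F.WT J t)
    (i : ι) : Vop A v i ∈ F.WT J (s + t / p) :=
  Fil.WT_mulVec (fun i j => Fil.WL.WT (hA i j) J) (fun j => Fil.WT_si (hv j)) i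

theorem Fil.WT_Vop_pow {F : Fil p K} {J : ℕ} {s t : ℝ} (hA : F.MW s A) (hs : 0 ≤ s)
    (ht : 2 * s ≤ t) (hv : ∀ i, v i ∈ F.WT J t) (k : ℕ) (i : ι) :
    (Vop A ^ k) v i ∈ F.WT J (2 * s + (t - 2 * s) / 2 ^ k) := by
  induction k generalizing i with
  | zero => simpa using hv i
  | succ k ih =>
    rw [Vop_succ]
    refine Fil.WT_le (Fil.WT_Vop hA ih i) le_rfl ?_
    have h0 : 0 ≤ (t - 2 * s) / 2 ^ k := div_nonneg (by linarith) (by positivity)
    have := div_le_div_of_nonneg_left (by linarith : 0 ≤ 2 * s + (t - 2 * s) / 2 ^ k) two_pos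
      (two_le_p (p := p))
    rw [pow_succ, ← div_div]
    linarith

theorem Fil.WT_Vop_pow' {F : Fil p K} {J : ℕ} {s t : ℝ} (hA : F.MW s A) (hs : 0 ≤ s)
    (ht : 2 * s ≤ t) (hv : ∀ i, v i ∈ F.WT J t) (k : ℕ) (i : ι) : (Vop A ^ k) v i ∈ F.WT J t := by
  refine Fil.WT_le (Fil.WT_Vop_pow hA hs ht hv k i) le_rfl ?_
  have := div_le_self (by linarith : 0 ≤ t - 2 * s) (one_le_pow₀ one_le_two : (1 : ℝ) ≤ 2 ^ k)
  linarith

variable (A h) in
/-- the frame `ε i, V ^ j e` -/
def frame (ε : E → ι → WittVector p K) (e : ι → WittVector p K) :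
    Matrix ι (E ⊕ Fin h) (WittVector p K) :=
  Matrix.of fun i => Sum.elim (fun l => ε l i) fun j => (Vop A ^ (j : ℕ)) e i

variable {ε : E → ι → WittVector p K}

theorem frame_inl (l : E) : (frame A h ε e).col (.inl l) = ε l := rfl

theorem frame_inr (j : Fin h) : (frame A h ε e).col (.inr j) = (Vop A ^ (j : ℕ)) e := rfl

variable [Fintype E] [DecidableEq E]

omit [DecidableEq E] in
theorem frame_mulVec (c : E ⊕ Fin h → WittVector p K) : frame A h ε e *ᵥ c =
    ∑ l, c (.inl l) • ε l + ∑ j : Fin h, c (.inr j) • (Vop A ^ (j : ℕ)) e := by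
  funext i
  simp [mulVec, dotProduct, frame, mul_comm]

variable (p h) in
/-- the matrix of `V` when `V ε = ε`, `V ^ h e = p e + ∑ x i ε i` -/
def Nm {R : Type} [CommRing R] (x : E → R) : Matrix (E ⊕ Fin h) (E ⊕ Fin h) R :=
  V0 p E h R + fromBlocks 0 (Matrix.of fun i (j : Fin h) => if (j : ℕ) + 1 = h then x i else 0) 0 0

omit hp [Fintype E] in
theorem Nm_zero {R : Type} [CommRing R] : Nm p h (0 : E → R) = V0 p E h R := by
  ext (i | i) (j | j) <;> simp [Nm]

omit hp in
theorem mul_Nm {R κ : Type} [CommRing R] (g : Matrix κ (E ⊕ Fin h) R) (x : E → R) :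
    (∀ l, (g * Nm p h x).col (.inl l) = g.col (.inl l)) ∧
    (∀ (j : Fin h) (hj : (j : ℕ) + 1 < h), (g * Nm p h x).col (.inr j) = g.col (.inr ⟨_, hj⟩)) ∧
    ∀ (j : Fin h), (j : ℕ) + 1 = h → (g * Nm p h x).col (.inr j) =
      (p : R) • g.col (.inr ⟨0, j.pos⟩) + ∑ l, x l • g.col (.inl l) := by
  refine ⟨fun l => funext fun i => ?_, fun j hj => funext fun i => ?_, fun j hj => funext fun i => ?_⟩
  · simp [Nm, V0, mul_apply, Matrix.one_apply]
  · simp only [Nm, V0, col_apply, mul_apply, Fintype.sum_sum_type, Matrix.add_apply, fromBlocks_apply₁₂,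
      fromBlocks_apply₂₂, of_apply, Matrix.zero_apply, hj.ne, if_false, and_false, add_zero, mul_zero,
      Finset.sum_const_zero, zero_add]
    rw [Finset.sum_eq_single ⟨_, hj⟩ (fun b _ hb => by
      rw [if_neg fun e => hb (Fin.ext e), mul_zero]) (by simp), if_pos rfl, mul_one]
  · simp only [Nm, V0, col_apply, mul_apply, Fintype.sum_sum_type, Matrix.add_apply, fromBlocks_apply₁₂,
      fromBlocks_apply₂₂, of_apply, Matrix.zero_apply, hj, if_true, and_true, add_zero, zero_add,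
      Pi.add_apply, Pi.smul_apply, Finset.sum_apply, smul_eq_mul]
    rw [Finset.sum_eq_single (⟨0, j.pos⟩ : Fin h) (fun b _ hb => by
      rw [if_neg b.2.ne, if_neg fun e => hb (Fin.ext e), mul_zero]) (by simp),
      if_neg j.pos.ne, if_pos rfl, add_comm]
    simp only [mul_comm]

/-- frames intertwine -/
theorem frame_itw {x : E → WittVector p K} (hε : ∀ i, Vop A (ε i) = ε i)
    (he : (Vop A ^ h) e = (p : WittVector p K) • e + ∑ l, x l • ε l) :
    A * (frame A h ε e).map (si p K) = frame A h ε e * Nm p h x := by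
  obtain ⟨h1, h2, h3⟩ := mul_Nm (p := p) (frame A h ε e) x
  refine ext_col ?_
  rintro (l | j)
  · rw [h1, ← Vop_col, frame_inl, hε]
  · rw [← Vop_col, frame_inr, ← Vop_succ]
    rcases (Nat.succ_le_of_lt j.2).lt_or_eq with hj | hj
    · rw [h2 j hj, frame_inr]
    · rw [h3 j hj, show (j : ℕ) + 1 = h from hj, he]
      rfl

/-- intertwiners are frames -/
theorem itw_frame (hh : 0 < h) {x : E → WittVector p K} {ν : Matrix ι (E ⊕ Fin h) (WittVector p K)}
    (hν : A * ν.map (si p K) = ν * Nm p h x) :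
    (∀ l, Vop A (ν.col (.inl l)) = ν.col (.inl l)) ∧
    (Vop A ^ h) (ν.col (.inr ⟨0, hh⟩)) =
      (p : WittVector p K) • ν.col (.inr ⟨0, hh⟩) + ∑ l, x l • ν.col (.inl l) ∧
    frame A h (fun l => ν.col (.inl l)) (ν.col (.inr ⟨0, hh⟩)) = ν := by
  obtain ⟨h1, h2, h3⟩ := mul_Nm (p := p) ν x
  have h4 : ∀ (j : ℕ) (hj : j < h), (Vop A ^ j) (ν.col (.inr ⟨0, hh⟩)) = ν.col (.inr ⟨j, hj⟩) := by
    intro j
    induction j with
    | zero => exact fun _ => rfl
    | succ j ih => exact fun hj => by rw [Vop_succ, ih (by omega), Vop_col, hν, h2 _ hj]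
  refine ⟨fun l => by rw [Vop_col, hν, h1], ?_, ext_col ?_⟩
  · obtain ⟨m, rfl⟩ : ∃ m, h = m + 1 := ⟨h - 1, by omega⟩
    rw [Vop_succ, h4 m m.lt_succ_self, Vop_col, hν, h3 _ rfl]
  · rintro (l | j)
    exacts [rfl, h4 j j.2]

theorem frame_Ua (hε : ∀ i, Vop A (ε i) = ε i) (a : E → WittVector p K) :
    frame A h ε e * Ua h a = frame A h ε (e + ∑ l, a l • ε l) := by
  refine ext_col ?_
  rintro (l | j)
  · funext i
    simp [Ua, frame, mul_apply, Matrix.one_apply]
  · rw [frame_inr, map_add, Vop_pow_sum hε]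
    funext i
    simp [Ua, frame, mul_apply, Matrix.one_apply, mul_comm, add_comm]

theorem Ua_mul (a b : E → WittVector p K) : Ua h a * Ua h b = Ua h (a + b) := by
  rw [Ua, Ua, Ua, fromBlocks_multiply]
  congr 1
  · simp
  · refine Matrix.ext fun i j => ?_
    simp [add_comm]
  · simp
  · simp

omit [Fintype E] in
theorem Ua_zero : Ua h (0 : E → WittVector p K) = 1 := by
  rw [Ua, ← fromBlocks_one]
  congr 1
  refine Matrix.ext fun i j => ?_
  simp

omit [DecidableEq E] in
theorem Vop_move {x : E → WittVector p K} (hε : ∀ i, Vop A (ε i) = ε i)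
    (he : (Vop A ^ h) e = (p : WittVector p K) • e + ∑ l, x l • ε l) (a : E → WittVector p K) :
    (Vop A ^ h) (e + ∑ l, a l • ε l) = (p : WittVector p K) • (e + ∑ l, a l • ε l) +
      ∑ l, (x l + Dop p K h (a l)) • ε l := by
  rw [map_add, he, Vop_pow_sum hε]
  simp only [Dop_apply, add_smul, sub_smul, Finset.sum_add_distrib, Finset.sum_sub_distrib,
    smul_add, Finset.smul_sum, mul_smul]
  abel

omit [Pf p K] [Fintype E] in
theorem Fil.MW_Nm {F : Fil p K} {t : ℝ} {x : E → WittVector p K} (ht : 0 ≤ t)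
    (hx : ∀ i, x i ∈ F.WL t) : F.MW t (Nm p h x) := by
  have h1 := Fil.WL_le (Fil.WL_one (F := F)) ht
  have h2 := Fil.WL_le (Fil.WL_natCast (F := F) p) ht
  rintro (i | i) (j | j) <;> simp only [Nm, V0, Matrix.add_apply, fromBlocks_apply₁₁, fromBlocks_apply₁₂,
    fromBlocks_apply₂₁, fromBlocks_apply₂₂, of_apply, Matrix.zero_apply, Matrix.one_apply, add_zero, zero_add]
  · split_ifs
    exacts [h1, zero_mem _]
  · split_ifs
    exacts [hx i, zero_mem _]
  · exact zero_mem _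
  · split_ifs
    exacts [h1, h2, zero_mem _]

end P261
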